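import Vale.Agent.Lib.P339.Gadget

open Vale.Agent.Lib.P339

/-- For every Max-Not-2 instance `I` with at least one constraint, the explicit 2-to-1 game
`I.toGame` (alphabets `Fin 8`, `Fin 4`; `4 m` left vertices, `n + 3 m` right vertices, `12 m`
uniformly weighted constraints) has value one if `I` has value one, and value at most
`1 - (1 - value I) / 6` in general; so value at most `5/8 + ε` for `I` gives value at most
`15/16 + ε/6` for the game. -/
theorem Vale.Agent.Results.P339.NotTwoGadget.result :
    ∀ (n m : ℕ) (I : NotTwoInstance n m), 0 < m →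
      (I.value = 1 → I.toGame.value = 1) ∧
      I.toGame.value ≤ 1 - (1 - I.value) / 6 ∧
      ∀ ε : ℝ, I.value ≤ 5 / 8 + ε → I.toGame.value ≤ 15 / 16 + ε / 6 := by
  intro n m I hm
  refine ⟨value_eq_one hm I, value_le hm I, fun ε hε => ?_⟩
  have h := value_le hm I
  linarith
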